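import Vale.Agent.P054.Main

/-!
Pinned distinct distances for dense subsets of arbitrary lattices in dimension at least three.
-/

namespace Vale.Agent.Results.P054.DenseLatticePinned

theorem result (d : ℕ) (hd : 3 ≤ d) (ε : ℝ) (hε : 0 < ε) :
    ∃ c : ℝ, 0 < c ∧ ∀ (T : ℕ) (L : (Fin d → ℝ) →ₗ[ℝ] EuclideanSpace ℝ (Fin d))
      (v : EuclideanSpace ℝ (Fin d)) (P : Finset (EuclideanSpace ℝ (Fin d))),
      1 ≤ T → Function.Injective L →
      (∀ q ∈ P, ∃ x : Fin d → ℕ, (∀ i, x i ≤ T) ∧ q = v + L (fun i => (x i : ℝ))) →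
      2 ≤ P.card → ε * (T : ℝ) ^ d ≤ (P.card : ℝ) →
      ∀ p ∈ P, c * (P.card : ℝ) ^ ((2 : ℝ) / d) ≤
        (((P.erase p).image (dist p)).card : ℝ) :=
  Vale.Agent.P054.pinned_lattice d hd ε hε

end Vale.Agent.Results.P054.DenseLatticePinned
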