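import Vale.Agent.P054.Doubling.Main

/-!
Pinned distinct distances in space for sets with small sumset.
-/

namespace Vale.Agent.Results.P054.SmallDoublingPinned

theorem result : ∃ c : ℝ, 0 < c ∧
    ∀ (P : Finset (EuclideanSpace ℝ (Fin 3))) (p : EuclideanSpace ℝ (Fin 3)), 2 ≤ P.card →
      c * (P.card : ℝ) ^ ((2 : ℝ) / 3) *
          ((P.card : ℝ) / ((Finset.image₂ (· + ·) P P).card : ℝ)) ^ 12 ≤
        (((P.erase p).image (dist p)).card : ℝ) :=
  Vale.Agent.P054.Doubling.pinned_of_doubling

end Vale.Agent.Results.P054.SmallDoublingPinned
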